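import Vale.Agent.P212H52.Rows

/-! The evaluations of a Kasparov module over the interval form a continuous family. -/

set_option linter.unusedSectionVars false

namespace Vale.Agent.P212H60

open Vale.Agent.P212 Vale.Agent.P212Z Vale.Agent.P212H ContinuousLinearMap Filter Topology
open scoped ComplexOrder

theorem cont_of_total {K : Type} [NormedAddCommGroup K] [InnerProductSpace ℂ K]
    {m : unitInterval → K →L[ℂ] K} {C : ℝ} (hC : ∀ t, ‖m t‖ ≤ C) {r : ℕ → unitInterval → K}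
    (hr : ∀ n, Continuous (r n))
    (hd : ∀ t, Dense (Submodule.span ℂ (Set.range fun n => r n t) : Set K))
    (hm : ∀ n, Continuous fun t => m t (r n t)) (ξ : K) : Continuous fun t => m t ξ := by
  refine continuous_iff_continuousAt.2 fun s => ?_
  have hC0 : 0 ≤ C := (norm_nonneg _).trans (hC 0)
  have hl : ∀ t, LipschitzWith ⟨C, hC0⟩ (m t) := fun t =>
    (m t).lipschitz.weaken (by exact_mod_cast hC t)
  have hcl := (LipschitzWith.uniformEquicontinuous (fun t ξ => m t ξ) _ hl).equicontinuous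
    |>.isClosed_setOfPred_tendsto (l := 𝓝 s) (m s).continuous
  refine hcl.closure_subset_iff.2 (fun η hη => ?_) (hd s ξ)
  induction hη using Submodule.span_induction with
  | mem x hx =>
    obtain ⟨n, rfl⟩ := hx
    have h1 : Tendsto (fun t => m t (r n s - r n t)) (𝓝 s) (𝓝 0) := by
      refine squeeze_zero_norm (fun t => (m t).le_of_opNorm_le (hC t) _) ?_
      have := ((continuous_const.sub (hr n)).norm.const_mul C (f := fun t => ‖r n s - r n t‖)).tendsto s
      simpa using this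
    have h2 := h1.add ((hm n).tendsto s)
    simpa using h2
  | zero => simp
  | add x y _ _ hx hy => simpa using Tendsto.add hx hy
  | smul c x _ hx => simpa using Tendsto.const_smul hx c

variable {E : Type} [NormedAddCommGroup E] [NormedSpace ℂ E] [SMul CI E] [CStarModule CI E]

theorem cpt_mul {K e : E →L[ℂ] E} (hK : IsCpt CI K) (he : IsAdj CI e e) : IsCpt CI (K * e) := by
  intro ε hε
  have h0 : 0 < ‖e‖ + 1 := by positivity
  obtain ⟨n, x, y, h⟩ := hK (ε / (‖e‖ + 1)) (div_pos hε h0)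
  refine ⟨n, x, fun i => e (y i), fun z => ?_⟩
  simp only [he _ z]
  refine (h (e z)).trans ?_
  rw [div_mul_eq_mul_div, div_le_iff₀ h0, mul_assoc]
  refine mul_le_mul_of_nonneg_left ((e.le_opNorm z).trans ?_) hε.le
  nlinarith [norm_nonneg z]

theorem adj_half {γ : E →L[ℂ] E} (h : IsAdj CI γ γ) :
    IsAdj CI ((1 / 2 : ℂ) • (1 + γ)) ((1 / 2 : ℂ) • (1 + γ)) ∧
      IsAdj CI ((1 / 2 : ℂ) • (1 - γ)) ((1 / 2 : ℂ) • (1 - γ)) := by
  refine ⟨fun x y => ?_, fun x y => ?_⟩
  · change inner CI ((1 / 2 : ℂ) • (x + γ x)) y = inner CI x ((1 / 2 : ℂ) • (y + γ y))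
    rw [CStarModule.inner_smul_left_complex, CStarModule.inner_smul_right_complex, star_half,
      CStarModule.inner_add_left, CStarModule.inner_add_right, h x y]
  · change inner CI ((1 / 2 : ℂ) • (x - γ x)) y = inner CI x ((1 / 2 : ℂ) • (y - γ y))
    rw [CStarModule.inner_smul_left_complex, CStarModule.inner_smul_right_complex, star_half,
      CStarModule.inner_sub_left, CStarModule.inner_sub_right, h x y]

variable {H : unitInterval → Type} [∀ t, NormedAddCommGroup (H t)]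
  [∀ t, InnerProductSpace ℂ (H t)] [∀ t, CompleteSpace (H t)] {π : ∀ t, E →ₗ[ℂ] H t}

section bound

variable (hd : ∀ t, DenseRange (π t)) (hi : ∀ t x y, inner ℂ (π t x) (π t y) = inner CI x y t)
include hd hi

theorem pi_sq (t : unitInterval) (x : E) : ‖π t x‖ ^ 2 = ‖inner CI x x t‖ := by
  rw [← hi, inner_self_eq_norm_sq_to_K]
  simp

theorem pi_le (t : unitInterval) (x : E) : ‖π t x‖ ≤ ‖x‖ := by
  refine (pow_le_pow_iff_left₀ (norm_nonneg _) (norm_nonneg _) two_ne_zero).1 ?_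
  rw [pi_sq hd hi, CStarModule.norm_sq_eq (A := CI)]
  exact ContinuousMap.norm_coe_le_norm _ t

theorem le_of_pi {x : E} (h : ∀ t, ‖π t x‖ ≤ 1) : ‖x‖ ≤ 1 := by
  refine (pow_le_one_iff_of_nonneg (norm_nonneg _) two_ne_zero).1 ?_
  rw [CStarModule.norm_sq_eq (A := CI), ContinuousMap.norm_le _ zero_le_one]
  intro t
  rw [← pi_sq hd hi]
  exact pow_le_one₀ (norm_nonneg _) (h t)

theorem pi_smul (t : unitInterval) (b : CI) (x : E) : π t (b • x) = b t • π t x :=
  (hd t).eq_of_inner_right ℂ fun y => by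
    rw [hi, inner_smul_right, hi, CStarModule.inner_op_smul_right]
    rfl

theorem pi_cont (x : E) : Continuous fun t => ‖π t x‖ := by
  have : (fun t => ‖π t x‖) = fun t => √‖inner CI x x t‖ := funext fun t => by
    rw [← pi_sq hd hi, Real.sqrt_sq (norm_nonneg _)]
  rw [this]
  exact (inner CI x x).continuous.norm.sqrt

theorem norm_le {T : E → E} {C : ℝ} (hC : 0 ≤ C) (hT : ∀ x, ‖T x‖ ≤ C * ‖x‖) {t : unitInterval}
    {S : H t →L[ℂ] H t} (hS : ∀ x, S (π t x) = π t (T x)) : ‖S‖ ≤ C := by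
  refine S.opNorm_le_bound hC fun ξ => ?_
  refine (hd t).induction_on (p := fun ξ => ‖S ξ‖ ≤ C * ‖ξ‖) ξ
    (isClosed_le S.continuous.norm (continuous_const.mul continuous_norm)) fun x => ?_
  have key : ∀ ε : ℝ, 0 < ε → ‖S (π t x)‖ ≤ C * (‖π t x‖ + ε) := by
    intro ε hε
    have hp : ∀ s, 0 < ‖π s x‖ + ε := fun s => by positivity
    let b : CI := ⟨fun s => (((‖π s x‖ + ε)⁻¹ : ℝ) : ℂ), Complex.continuous_ofReal.comp
      (((pi_cont hd hi x).add continuous_const).inv₀ fun s => (hp s).ne')⟩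
    have hb : ∀ s, ‖b s‖ = (‖π s x‖ + ε)⁻¹ := fun s =>
      (Complex.norm_real _).trans (Real.norm_of_nonneg (inv_nonneg.2 (hp s).le))
    have h1 : ‖b • x‖ ≤ 1 := le_of_pi hd hi fun s => by
      rw [pi_smul hd hi, norm_smul, hb]
      exact inv_mul_le_one_of_le₀ (by linarith) (hp s).le
    have h2 := (pi_le hd hi t (T (b • x))).trans ((hT _).trans (mul_le_of_le_one_right hC h1))
    rw [← hS, pi_smul hd hi, map_smul, norm_smul, hb, inv_mul_le_iff₀ (hp t), mul_comm] at h2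
    exact h2
  have h3 : Tendsto (fun ε : ℝ => C * (‖π t x‖ + ε)) (𝓝[>] 0) (𝓝 (C * (‖π t x‖ + 0))) :=
    ((continuous_const.mul (continuous_const.add continuous_id)).tendsto 0).mono_left
      nhdsWithin_le_nhds
  rw [add_zero] at h3
  exact ge_of_tendsto h3 (eventually_mem_nhdsWithin.mono key)

theorem star_ind {T T' : E →L[ℂ] E} (h : IsAdj CI T T') {t : unitInterval} {S : H t →L[ℂ] H t}
    (hS : ∀ x, S (π t x) = π t (T x)) (x : E) : star S (π t x) = π t (T' x) :=
  (hd t).eq_of_inner_right ℂ fun y => by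
    rw [star_eq_adjoint, adjoint_inner_right, hS, hi, hi, h]

variable {w : ∀ t, H t →L[ℂ] L2 ℕ} {r : ℕ → unitInterval → L2 ℕ} {z : ℕ → E}
  (hw : ∀ t, adjoint (w t) ∘L w t = 1) (hc : ∀ x, Continuous fun t => w t (π t x))
  (hr : ∀ n, Continuous (r n))
  (ht : ∀ t, Dense (Submodule.span ℂ (Set.range fun n => r n t) : Set (L2 ℕ)))
  (hz : ∀ n t, adjoint (w t) (r n t) = π t (z n))
include hw hc

theorem cont_cpt {K : E →L[ℂ] E} (hK : IsCpt CI K) {S : ∀ t, H t →L[ℂ] H t}
    (hS : ∀ t x, S t (π t x) = π t (K x)) : Continuous fun t => cj (w t) (S t) := by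
  refine continuous_of_uniform_approx_of_continuous fun u hu => ?_
  obtain ⟨ε, hε, hu⟩ := Metric.mem_uniformity_dist.1 hu
  obtain ⟨n, x, y, h⟩ := hK (ε / 2) (half_pos hε)
  refine ⟨fun t => ∑ i, InnerProductSpace.rankOne ℂ (w t (π t (x i))) (w t (π t (y i))),
    continuous_finsetSum _ fun i _ => ?_, fun t => hu ?_⟩
  · exact ((smulRightL ℂ (L2 ℕ) (L2 ℕ)).continuous.comp
      ((innerSL ℂ).continuous.comp (hc (y i)))).clm_apply (hc (x i))
  · have h1 : ∑ i, InnerProductSpace.rankOne ℂ (w t (π t (x i))) (w t (π t (y i))) =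
        cj (w t) (∑ i, InnerProductSpace.rankOne ℂ (π t (x i)) (π t (y i))) := by
      ext1 ξ
      simp only [cj, comp_apply, sum_apply, map_sum, InnerProductSpace.rankOne_apply, map_smul,
        adjoint_inner_right]
    beta_reduce
    rw [dist_eq_norm, h1, ← cj_sub]
    refine ((norm_cj_le (norm_iso_le (hw t)) _).trans
      (norm_le hd hi (half_pos hε).le h fun v => ?_)).trans_lt (half_lt_self hε)
    simp only [sub_apply, sum_apply, map_sub, map_sum, InnerProductSpace.rankOne_apply, hS, hi,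
      pi_smul hd hi]

include hr ht hz

theorem sc {T T' : E →L[ℂ] E} {S : ∀ t, H t →L[ℂ] H t} (hS : ∀ t x, S t (π t x) = π t (T x))
    (hS' : ∀ t x, star (S t) (π t x) = π t (T' x)) : SC fun t => cj (w t) (S t) := by
  have key : ∀ {T : E →L[ℂ] E} {S : ∀ t, H t →L[ℂ] H t}, (∀ t x, S t (π t x) = π t (T x)) →
      (∀ t, ‖cj (w t) (S t)‖ ≤ ‖T‖) ∧ ∀ ξ, Continuous fun t => cj (w t) (S t) ξ := by
    intro T S hS
    have h1 : ∀ t, ‖cj (w t) (S t)‖ ≤ ‖T‖ := fun t => (norm_cj_le (norm_iso_le (hw t)) _).trans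
      (norm_le hd hi (norm_nonneg T) T.le_opNorm (hS t))
    refine ⟨h1, cont_of_total h1 hr ht fun n => ?_⟩
    simpa only [cj, comp_apply, hz, hS] using hc (T (z n))
  refine ⟨⟨_, (key hS).1⟩, (key hS).2, fun ξ => ?_⟩
  simp only [← cj_star]
  exact (key hS').2 ξ

end bound

theorem fam_aux (stab : STAB) {A : Type} [NonUnitalCStarAlgebra A] (m : KMod CI E A)
    (a : ∀ t, Kas.Fredholm A (H t)) (h : ∀ t, IsEval m t (a t) (π t)) :
    ∃ (w : ∀ t, H t →L[ℂ] L2 ℕ) (hw : ∀ t, adjoint (w t) ∘L w t = 1),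
      QFam fun t => (ofF (a t)).quad (w t) (hw t) := by
  have hd := fun t => (h t).dense
  have hi := fun t => (h t).inn
  obtain ⟨w, r, z, hw, hc, hr, ht, hz⟩ := stab E m.gen H π hd hi
  obtain ⟨ad₀, ad₁⟩ := adj_half m.γ_adj
  have i₀ : ∀ t x, ((1 / 2 : ℂ) • (1 + (a t).γ)) (π t x) = π t (((1 / 2 : ℂ) • (1 + m.γ)) x) :=
    fun t x => by
      change (1 / 2 : ℂ) • (π t x + (a t).γ (π t x)) = π t ((1 / 2 : ℂ) • (x + m.γ x))
      rw [map_smul, map_add, (h t).γ]
  have i₁ : ∀ t x, ((1 / 2 : ℂ) • (1 - (a t).γ)) (π t x) = π t (((1 / 2 : ℂ) • (1 - m.γ)) x) :=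
    fun t x => by
      change (1 / 2 : ℂ) • (π t x - (a t).γ (π t x)) = π t ((1 / 2 : ℂ) • (x - m.γ x))
      rw [map_smul, map_sub, (h t).γ]
  have hρ : ∀ {e : E →L[ℂ] E} {f : ∀ t, H t →L[ℂ] H t}, IsAdj CI e e →
      (∀ t x, f t (π t x) = π t (e x)) → ∀ b, SC fun t => cj (w t) ((a t).ρ b * f t) := by
    intro e f he hf b
    have h1 : ∀ t x, ((a t).ρ b * f t) (π t x) = π t ((m.φ b * e) x) := fun t x => by
      change (a t).ρ b (f t (π t x)) = π t (m.φ b (e x))
      rw [hf, (h t).ρ]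
    exact sc hd hi hw hc hr ht hz h1 (T' := e * m.φ (star b)) fun t =>
      star_ind hd hi (T := m.φ b * e)
        (fun x y => (m.φ_adj b (e x) y).trans (he x (m.φ (star b) y))) (h1 t)
  have hF : SC fun t => cj (w t) (a t).F :=
    sc hd hi hw hc hr ht hz (fun t => (h t).F) fun t => star_ind hd hi m.F_adj (h t).F
  have hcm : ∀ {e : E →L[ℂ] E} {f f' : ∀ t, H t →L[ℂ] H t}, IsAdj CI e e →
      (∀ t x, f t (π t x) = π t (e x)) → (∀ t, f' t * (a t).F = (a t).F * f t) → ∀ b,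
      Continuous fun t => cj (w t) (a t).F * cj (w t) ((a t).ρ b * f t) -
        cj (w t) ((a t).ρ b * f' t) * cj (w t) (a t).F := by
    intro e f f' he hf hf' b
    refine (cont_cpt hd hi hw hc (cpt_mul (m.comm b) he)
      (S := fun t => ((a t).F * (a t).ρ b - (a t).ρ b * (a t).F) * f t) fun t x => ?_).congr
      fun t => ?_
    · change (a t).F ((a t).ρ b (f t (π t x))) - (a t).ρ b ((a t).F (f t (π t x))) =
        π t (m.F (m.φ b (e x)) - m.φ b (m.F (e x)))
      simp only [map_sub, hf, (h t).ρ, (h t).F]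
    · rw [← cj_mul (hw t), ← cj_mul (hw t), ← cj_sub, mul_assoc, hf', ← mul_assoc, ← mul_assoc,
        ← sub_mul]
  have hsq : ∀ {e : E →L[ℂ] E} {f : ∀ t, H t →L[ℂ] H t}, IsAdj CI e e →
      (∀ t x, f t (π t x) = π t (e x)) → ∀ b, Continuous fun t =>
        (cj (w t) (a t).F * cj (w t) (a t).F - 1) * cj (w t) ((a t).ρ b * f t) := by
    intro e f he hf b
    refine (cont_cpt hd hi hw hc (cpt_mul (m.sq b) he)
      (S := fun t => ((a t).F * (a t).F - 1) * (a t).ρ b * f t) fun t x => ?_).congr fun t => ?_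
    · change (a t).F ((a t).F ((a t).ρ b (f t (π t x)))) - (a t).ρ b (f t (π t x)) =
        π t (m.F (m.F (m.φ b (e x))) - m.φ b (e x))
      simp only [map_sub, hf, (h t).ρ, (h t).F]
    · rw [sub_mul (cj _ _ * _), one_mul, ← cj_mul (hw t), ← cj_mul (hw t), ← cj_sub, ← mul_assoc,
        ← sub_mul, sub_mul _ 1, one_mul]
  exact ⟨w, hw, hρ ad₀ i₀, hρ ad₁ i₁, hF, hF, hcm ad₀ i₀ fun t => (ofF (a t)).e₁_F,
    hcm ad₁ i₁ fun t => (ofF (a t)).e₀_F, hsq ad₀ i₀, hsq ad₁ i₁⟩

theorem fam (stab : STAB) : FAM := by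
  intro A E _ _ _ _ _ m c hc
  choose π hπ using hc
  exact @fam_aux E _ _ _ _ (fun t => (c t).H) (fun t => (c t).nacg) (fun t => (c t).ips)
    (fun t => (c t).cs) π stab A _ m (fun t => (c t).fm) hπ

end Vale.Agent.P212H60
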