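import Vale.Agent.P212Z.St
import Mathlib.Analysis.CStarAlgebra.Module.Defs
import Mathlib.Analysis.CStarAlgebra.ContinuousMap

/-! Kasparov modules over Hilbert C*-modules, homotopy of cycles, `KK_0(A, ℂ)` as the group of
cycles modulo homotopy, `KX_0(X)` and the coarse assembly map. -/

namespace Vale.Agent.P212U

open Vale.Agent.P212 Vale.Agent.P212Z Vale.Agent.P212Z.Kas ZeroAtInfty
open scoped ComplexOrder

/-- The scalar product of a Hilbert space. -/
noncomputable def ip {k H : Type} [RCLike k] [NormedAddCommGroup H] [InnerProductSpace k H]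
    (u v : H) : k := inner k u v

/-- The bounded operators between two Hilbert spaces. -/
abbrev Op (H K : Type) [NormedAddCommGroup H] [InnerProductSpace ℂ H] [NormedAddCommGroup K]
    [InnerProductSpace ℂ K] : Type := H →L[ℂ] K

section Module

variable {B E : Type} [NormedAddCommGroup E] [NormedSpace ℂ E] [SMul B E] (g : E → E → B)

/-- `T` is adjointable for the `B`-valued scalar product `g`, with adjoint `S`. -/
def IsAdj (T S : E →L[ℂ] E) : Prop := ∀ x y : E, g (T x) y = g x (S y)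

/-- `T ∈ K(E)`: `T` is a norm limit of finite sums of the operators `θ_{x,y} z = ⟨y, z⟩ x`. -/
def IsCpt (T : E →L[ℂ] E) : Prop :=
  ∀ ε : ℝ, 0 < ε → ∃ (n : ℕ) (x y : Fin n → E), ∀ z : E,
    ‖T z - ∑ i, g (y i) z • x i‖ ≤ ε * ‖z‖

variable (B E) in
/-- `E` is countably generated. -/
def CountablyGen : Prop :=
  ∃ x : ℕ → E, Dense (Submodule.span ℂ {z : E | ∃ (b : B) (n : ℕ), z = b • x n} : Set E)

/-- A Kasparov `(A, B)`-module on the Hilbert `B`-module `E` with the scalar product `g`: `E` is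
complete and countably generated, `γ` is a grading operator, `φ` is a *-homomorphism into the even adjointable operators, `F` is odd with
adjoint `F'`, and `(F^2 - 1) φ(a)`, `(F - F*) φ(a)` and `[F, φ(a)]` are in `K(E)`. -/
structure KMod (A : Type) [NonUnitalCStarAlgebra A] : Type where
  γ : E →L[ℂ] E
  φ : A →ₙₐ[ℂ] (E →L[ℂ] E)
  F : E →L[ℂ] E
  F' : E →L[ℂ] E
  complete : CompleteSpace E
  gen : CountablyGen B E
  γ_adj : IsAdj g γ γ
  γ_sq : γ * γ = 1
  φ_adj : ∀ a, IsAdj g (φ a) (φ (star a))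
  F_adj : IsAdj g F F'
  even : ∀ a, γ * φ a = φ a * γ
  odd : γ * F = -(F * γ)
  sq : ∀ a, IsCpt g ((F * F - 1) * φ a)
  sa : ∀ a, IsCpt g ((F - F') * φ a)
  comm : ∀ a, IsCpt g (F * φ a - φ a * F)

variable {g} {A H : Type} [NonUnitalCStarAlgebra A] [NormedAddCommGroup H]
  [InnerProductSpace ℂ H] [CompleteSpace H]

/-- `S` is induced by `T` along `π`. -/
def Induced (π : E →ₗ[ℂ] H) (T : E →L[ℂ] E) (S : H →L[ℂ] H) : Prop := ∀ x, S (π x) = π (T x)

/-- `c` is the evaluation of `m` at the character `ev` of `B`: a linear map `π` identifies `H` with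
`E ⊗_ev ℂ`, the completion of `E` for the form `ev ⟨x, y⟩`, and the operators of `c` are the
induced ones. -/
structure IsEval (m : KMod g A) (ev : B → ℂ) (c : Fredholm A H) : Prop where
  ex : ∃ π : E →ₗ[ℂ] H, DenseRange π ∧ (∀ x y : E, ip (π x) (π y) = ev (g x y)) ∧
    Induced π m.γ c.γ ∧ (∀ a, Induced π (m.φ a) (c.ρ a)) ∧ Induced π m.F c.F

/-- The evaluation of `m` at `ev` exists and is unique up to unitary equivalence. -/
def HasEval (m : KMod g A) (ev : B → ℂ) : Prop :=
  (∃ (H : Type) (_ : NormedAddCommGroup H) (_ : InnerProductSpace ℂ H) (_ : CompleteSpace H)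
    (c : Fredholm A H), IsEval m ev c) ∧
  ∀ (H K : Type) [NormedAddCommGroup H] [InnerProductSpace ℂ H] [CompleteSpace H]
    [NormedAddCommGroup K] [InnerProductSpace ℂ K] [CompleteSpace K] (a : Fredholm A H)
    (b : Fredholm A K), IsEval m ev a → IsEval m ev b → UnitEq a b

end Module

variable {A B : Type} [NonUnitalCStarAlgebra A] [NonUnitalCStarAlgebra B]

variable (B) in
/-- `a` and `b` are the evaluations at `e₀` and `e₁` of a Kasparov `(A, B)`-module. -/
inductive Ends [PartialOrder B] (e₀ e₁ : B → ℂ) : Cyc A → Cyc A → Prop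
  | mk {H K E : Type} [NormedAddCommGroup H] [InnerProductSpace ℂ H] [CompleteSpace H]
      [NormedAddCommGroup K] [InnerProductSpace ℂ K] [CompleteSpace K] [NormedAddCommGroup E]
      [NormedSpace ℂ E] [SMul B E] [CStarModule B E]
      (a : Fredholm A H) (b : Fredholm A K) (m : KMod (inner B : E → E → B) A) :
      IsEval m e₀ a → IsEval m e₁ b → Ends e₀ e₁ ⟨H, a⟩ ⟨K, b⟩

/-- Homotopy of cycles: `a` and `b` are the evaluations at `0` and `1` of a Kasparov
`(A, C([0,1]))`-module. -/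
def Htpy : Cyc A → Cyc A → Prop := Ends C(unitInterval, ℂ) (fun f => f 0) fun f => f 1

variable (A B) in
/-- Every Kasparov `(A, B)`-module has a well defined evaluation at `ev`. -/
def AllEval [PartialOrder B] (ev : B → ℂ) : Prop :=
  ∀ (E : Type) [NormedAddCommGroup E] [NormedSpace ℂ E] [SMul B E] [CStarModule B E]
    (m : KMod (inner B : E → E → B) A), HasEval m ev

variable (A) in
/-- The evaluations of a Kasparov `(A, C([0,1]))`-module exist and are unique up to unitary
equivalence. -/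
def EvalWellDefined : Prop := ∀ t : unitInterval, AllEval A C(unitInterval, ℂ) fun f => f t

variable (A) in
/-- Kasparov's group `KK_0(A, ℂ)`: cycles modulo homotopy, with the direct sum as addition. -/
abbrev KK : Type 1 := Pres (Htpy (A := A)) Cyc.IsSum

theorem comap_htpy (ψ : B →⋆ₙₐ[ℂ] A) :
    ∀ a b : Cyc A, Htpy a b → Htpy (a.comap ψ) (b.comap ψ) := by
  rintro _ _ ⟨a, b, m, ⟨π, h⟩, ⟨π', h'⟩⟩
  exact .mk (a.comap ψ) (b.comap ψ)
    ⟨m.γ, m.φ.comp (ψ : B →ₙₐ[ℂ] A), m.F, m.F', m.complete, m.gen, m.γ_adj, m.γ_sq,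
      fun a => (congrArg (fun z => IsAdj _ (m.φ (ψ a)) (m.φ z)) (map_star ψ a)).mpr
        (m.φ_adj (ψ a)),
      m.F_adj, fun a => m.even (ψ a), m.odd, fun a => m.sq (ψ a), fun a => m.sa (ψ a),
      fun a => m.comm (ψ a)⟩
    ⟨π, h.1, h.2.1, h.2.2.1, fun x => h.2.2.2.1 (ψ x), h.2.2.2.2⟩
    ⟨π', h'.1, h'.2.1, h'.2.2.1, fun x => h'.2.2.2.1 (ψ x), h'.2.2.2.2⟩

/-- Contravariant functoriality of `KK_0(A, ℂ)` in `A`. -/
noncomputable def KK.comap (ψ : B →⋆ₙₐ[ℂ] A) : KK A →+ KK B :=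
  Pres.map (Cyc.comap ψ) (comap_htpy ψ) (Cyc.comap_isSum ψ)

/-- The coarse K-homology group `KX_0(X) = lim_r KK_0(C_0(P_r(X)), ℂ)`. -/
abbrev KX0 (X : Type) [MetricSpace X] [BddGeometry X] : Type 1 :=
  AddCommGroup.DirectLimit (fun r : ℝ => KK C₀(Rips X r, ℂ))
    (fun _ _ h => KK.comap (c0Comap (ripsInclCo h)))

/-- The class in `KX_0(X)` of a cycle over `C_0(P_r(X))`. -/
noncomputable def KX0.cls (X : Type) [MetricSpace X] [BddGeometry X] (r : ℝ)
    (c : Cyc C₀(Rips X r, ℂ)) : KX0 X :=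
  limOf (G := fun r : ℝ => KK C₀(Rips X r, ℂ))
    (fun _ _ h => KK.comap (c0Comap (ripsInclCo h))) r (Pres.of _ _ c)

section Amp

variable {X H K E : Type} [NormedAddCommGroup H] [InnerProductSpace ℂ H] [CompleteSpace H]
  [NormedAddCommGroup K] [InnerProductSpace ℂ K] [CompleteSpace K]
  [NormedAddCommGroup E] [InnerProductSpace ℂ E] [CompleteSpace E]

/-- The operator `T` on `H = l^2(X) ⊗ l^2(ℕ)` has the matrix entries `M x y`, which are
operators on `K = l^2(ℕ)`. -/
def HasEnt (b : HilbertBasis (X × ℕ) ℂ H) (e : HilbertBasis ℕ ℂ K) (T : H →L[ℂ] H)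
    (M : X → X → K →L[ℂ] K) : Prop :=
  ∀ x y m n, (ip (b (x, m)) (T (b (y, n))) : ℂ) = ip (e m) (M x y (e n))

open Classical in
/-- The operators on `l^2(X) ⊗ l^2(ℕ)` attached to a Fredholm module `c = (E, γ, ρ, F)`, the
square roots `φ x` of a partition of unity and an isometry `w : E → l^2(ℕ)`: `p₀` and `p₁` have
the entries `w ρ(φ_x φ_y) (1 ± γ)/2 w*`, and `Φ = 1 ⊗ w F w*`. -/
structure IsAmp (b : HilbertBasis (X × ℕ) ℂ H) (e : HilbertBasis ℕ ℂ K) (φ : X → B)
    (c : Fredholm B E) (w : E →L[ℂ] K) (p₀ p₁ Φ : H →L[ℂ] H) : Prop where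
  iso : adj w ∘L w = 1
  even : HasEnt b e p₀ fun x y =>
    w ∘L (c.ρ (φ x * φ y) * ((1 / 2 : ℂ) • (1 + c.γ))) ∘L adj w
  odd : HasEnt b e p₁ fun x y =>
    w ∘L (c.ρ (φ x * φ y) * ((1 / 2 : ℂ) • (1 - c.γ))) ∘L adj w
  op : HasEnt b e Φ fun x y => if x = y then w ∘L c.F ∘L adj w else 0

end Amp

section Assembly

variable {X : Type} {C : ℝ → Type} {G : Type 1} [∀ r, NonUnitalCStarAlgebra (C r)]
  (φ : ∀ r, X → C r) (cls : ∀ r, Cyc (C r) → G)

/-- `μ` is the coarse assembly map for the completion `i : ℂ[X] → A`, on the group `G` in which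
`cls r c` is the class of the cycle `c` over `C r = C_0(P_r(X))`: the image of the class of a
Fredholm module is the index of the finite propagation operator `p₁ Φ p₀`, that is, of
`∑_x ρ(φ_x) F ρ(φ_x)`, where `φ_x = √t_x` and the `t_x` are the barycentric coordinates. -/
def IsAssembly {H : Type} [NormedAddCommGroup H] [InnerProductSpace ℂ H]
    (b : HilbertBasis (X × ℕ) ℂ H) (i : (H →L[ℂ] H) → A) (μ : G → KC A) : Prop :=
  ∀ (r : ℝ) (E K : Type) [NormedAddCommGroup E] [InnerProductSpace ℂ E] [CompleteSpace E]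
    [NormedAddCommGroup K] [InnerProductSpace ℂ K] [CompleteSpace K] (e : HilbertBasis ℕ ℂ K)
    (c : Fredholm (C r) E),
    (∃ w : Op E K, ∃ p₀ p₁ Φ, IsAmp b e (φ r) c w p₀ p₁ Φ) ∧
    ∀ w : Op E K, ∀ p₀ p₁ Φ, IsAmp b e (φ r) c w p₀ p₁ Φ → IsIndex i p₀ p₁ Φ (μ (cls r ⟨E, c⟩))

/-- There is exactly one homomorphism `μ` with the property `P`; it is not rationally injective,
and its kernel contains a linearly independent family indexed by the reals. -/
def Fails {K : Type} [AddCommGroup G] [AddCommGroup K] (P : (G → K) → Prop) : Prop :=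
  ∃ μ : G →+ K, P μ ∧ (∀ μ' : G →+ K, P μ' → μ' = μ) ∧ ¬ RatInj μ ∧ BigKer μ

/-- This holds for the assembly map of the maximal and of the reduced completion
`i : ℂ[X] → A`. -/
def AssemblyFails [MetricSpace X] [AddCommGroup G] : Prop :=
  ∀ (H A : Type) [NormedAddCommGroup H] [InnerProductSpace ℂ H] [CompleteSpace H]
    [NonUnitalCStarAlgebra A] (b : HilbertBasis (X × ℕ) ℂ H) (i : Op H H → A),
    IsMaxRoe b i ∨ IsReducedRoe b i → Fails (IsAssembly φ cls b i)

end Assembly

end Vale.Agent.P212U
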